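import Vale.Agent.P235U99.Main

/-! P235: `c₁` and the flow-cut gap are bounded on planar graphs, graphs on surfaces, graphs of
bounded treewidth, planar graphs with a vortex, graphs without a one-crossing minor, clique sums,
and after adding apices. -/

namespace Vale.Agent.Results.P235.AAAUnion

open Vale.Agent.P235 Vale.Agent.P235.H134 Vale.Agent.P235F Vale.Agent.P235U

/-- `Bd G C`: `c₁(G) ≤ C` and the flow-cut gap of `G` is at most `C`. All graphs are finite and
connected.
(1) An absolute constant for planar graphs.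
(2) `A log (g + 2)` for graphs on a closed surface, orientable or not, of Euler genus `≤ g`.
(3) A constant `C(k)` for treewidth at most `k`.
(4) For `X` drawn with at most one crossing: `A (C(k, X) + log (g + 2))` for `Good k g X` graphs,
and `A (C(k, X) + log (g + 2) + log (t + 2))` if deleting at most `t` vertices leaves such
components.
(5) Q1 for every minor-closed family that omits a graph drawn with at most one crossing.
(6) For `C ≥ 1`, `c₁(G) ≤ C` if and only if the flow-cut gap is at most `C`. -/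
theorem result :
    (∃ C : ℝ, ∀ (V : Type) [Finite V] (G : SimpleGraph V), G.Connected → Planar G → Bd G C) ∧
    (∃ A : ℝ, ∀ (g : ℕ) (V : Type) [Finite V] (G : SimpleGraph V), G.Connected → OnSurface g G →
      Bd G (A * Real.log (g + 2))) ∧
    (∀ k : ℕ, ∃ C : ℝ, ∀ (V : Type) [Finite V] (G : SimpleGraph V), G.Connected →
      TreewidthLE G k → Bd G C) ∧
    (∃ A : ℝ, ∀ (k : ℕ) (W : Type) [Finite W] (X : SimpleGraph W), X.Connected → AtMostOneX X →
      ∃ C : ℝ, ∀ (g : ℕ) (V : Type) [Finite V] (G : SimpleGraph V), G.Connected →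
        (Good k g X G → Bd G (A * (C + Real.log (g + 2)))) ∧
        ∀ (t : ℕ) (S : Set V), S.ncard ≤ t → (∀ u ∉ S, Good k g X (G.induce (compSet G S u))) →
          Bd G (A * (C + Real.log (g + 2) + Real.log (t + 2)))) ∧
    (∀ F : (V : Type) → SimpleGraph V → Prop, MinorClosed F →
      (∃ (W : Type) (_ : Finite W) (X : SimpleGraph W), X.Connected ∧ AtMostOneX X ∧ ¬ F W X) →
      ∃ C : ℝ, ∀ (V : Type) [Finite V] (G : SimpleGraph V), G.Connected → F V G → Bd G C) ∧
    ∀ (V : Type) [Finite V] (G : SimpleGraph V), G.Connected →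
      ∀ C : ℝ, 1 ≤ C → (DistortionLE G C ↔ GapLE G C) := by
  obtain ⟨⟨C, h1⟩, h2, -⟩ := Vale.Agent.P235Z.final
  obtain ⟨A, -, h3⟩ := surf
  refine ⟨⟨C, fun V _ G hG h => bd_of hG (h1 V G hG h)⟩,
    ⟨A, fun g V _ G hG h => bd_of hG (h3 g V G hG h)⟩, fun k => ?_, union, family,
    fun V _ G hG C hC => dist_iff_gap hG hC⟩
  obtain ⟨C, h⟩ := h2 k
  exact ⟨C, fun V _ G hG h' => bd_of hG (h V G hG h')⟩

end Vale.Agent.Results.P235.AAAUnion
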