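import Vale.Agent.P235Z.Final
import Vale.Agent.P235F.Main

/-! P235: `c₁` and the multicommodity flow-cut gap are bounded for planar graphs, for graphs of
bounded treewidth, and for clique sums of planar graphs, graphs without `K₅` minor and graphs of
bounded treewidth. -/

namespace Vale.Agent.Results.P235.AAFlowCut

open Vale.Agent.P235 Vale.Agent.P235.H134 Vale.Agent.P235.K5 Vale.Agent.P235F

/-- (1) There is an absolute constant `C` which bounds `c₁(G)` and the flow-cut gap of all finite
connected planar `G`.
(2) For every `k` there is such a `C` for all finite connected `G` of treewidth at most `k`.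
(3) There is an absolute constant `A`, and for every `k` a constant `C`, such that
(a) `C` bounds `c₁(G)` and the gap for every finite connected spanning subgraph `G` of a graph `H`
that is glued, one piece after another, along cliques with at most `m` vertices (`m` is arbitrary)
from pieces each of which is planar, or has no `K₅` minor, or has treewidth at most `k`;
(b) `A (C + log (t + 2))` bounds both if deleting at most `t` vertices of the finite connected
graph `G` leaves components as in (a).
(4) For every finite connected `G`: in every instance the maximum concurrent flow and the sparsest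
cut are attained and flow `≤` cut, and for `C ≥ 1`, `c₁(G) ≤ C` iff the flow-cut gap is `≤ C`. -/
theorem result :
    (∃ C : ℝ, ∀ (V : Type) [Finite V] (G : SimpleGraph V), G.Connected → Planar G →
      DistortionLE G C ∧ GapLE G C) ∧
    (∀ k : ℕ, ∃ C : ℝ, ∀ (V : Type) [Finite V] (G : SimpleGraph V), G.Connected →
      TreewidthLE G k → DistortionLE G C ∧ GapLE G C) ∧
    (∃ A : ℝ, ∀ k : ℕ, ∃ C : ℝ,
      (∀ (m : ℕ) (V : Type) [Finite V] (G H : SimpleGraph V), G.Connected → G ≤ H →
        CliqueSum m (fun _ B _ => Planar B ∨ ¬ IsMinor (⊤ : SimpleGraph (Fin 5)) B ∨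
          TreewidthLE B k) H → DistortionLE G C ∧ GapLE G C) ∧
      ∀ (t : ℕ) (V : Type) [Finite V] (G : SimpleGraph V) (S : Set V), G.Connected →
        S.ncard ≤ t →
        (∀ u ∉ S, ∃ (m : ℕ) (H : SimpleGraph (compSet G S u)), G.induce (compSet G S u) ≤ H ∧
          CliqueSum m (fun _ B _ => Planar B ∨ ¬ IsMinor (⊤ : SimpleGraph (Fin 5)) B ∨
            TreewidthLE B k) H) →
        DistortionLE G (A * (C + Real.log (t + 2))) ∧ GapLE G (A * (C + Real.log (t + 2)))) ∧
    (∀ (V : Type) [Finite V] (G : SimpleGraph V), G.Connected →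
      (∀ (c : Sym2 V → ℝ) (D : V → V → ℝ), IsInstance G c D →
        IsGreatest {lam | Routable G c D lam} (maxFlow G c D) ∧
          IsLeast (cutRatios G c D) (sparsestCut G c D) ∧ maxFlow G c D ≤ sparsestCut G c D) ∧
      ∀ C : ℝ, 1 ≤ C → (DistortionLE G C ↔ GapLE G C)) := by
  obtain ⟨⟨C, h1⟩, h2, A, h3⟩ := Vale.Agent.P235Z.final
  refine ⟨⟨C, fun V _ G hG h => ⟨h1 V G hG h, gap_of hG (h1 V G hG h)⟩⟩, fun k => ?_,
    ⟨A, fun k => ?_⟩, fun V _ G hG => ⟨fun c D h => attained hG h, fun C hC => dist_iff_gap hG hC⟩⟩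
  · obtain ⟨C, h⟩ := h2 k
    exact ⟨C, fun V _ G hG h' => ⟨h V G hG h', gap_of hG (h V G hG h')⟩⟩
  · obtain ⟨C, ha, hb⟩ := h3 k
    exact ⟨C, fun m V _ G H hG hH h => ⟨ha m V G H hG hH h, gap_of hG (ha m V G H hG hH h)⟩,
      fun t V _ G S hG hS h => ⟨hb t V G S hG hS h, gap_of hG (hb t V G S hG hS h)⟩⟩

end Vale.Agent.Results.P235.AAFlowCut
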